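import Mathlib

/-!
# P038: the local exchange inequality

Two reflexive relations `M` on `α`, `N` on `β`; families `B z ⊆ U z` of subsets of `β`.
-/

open Finset

namespace Vale.Agent.P038.H768

section basic

variable {ι : Type*} [DecidableEq ι]

/-- total weight -/
noncomputable def wt (w : ι → ℝ) (S : Finset ι) : ℝ := ∑ i ∈ S, w i

omit [DecidableEq ι] in
theorem wt_mono {w : ι → ℝ} (hw : ∀ i, 0 ≤ w i) {S T : Finset ι} (h : S ⊆ T) :
    wt w S ≤ wt w T :=
  sum_le_sum_of_subset_of_nonneg h fun i _ _ => hw i

theorem wt_union {w : ι → ℝ} {S T : Finset ι} (h : Disjoint S T) :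
    wt w (S ∪ T) = wt w S + wt w T := sum_union h

theorem wt_union' (w : ι → ℝ) (S T : Finset ι) : wt w (S ∪ T) = wt w S + wt w (T \ S) := by
  rw [← wt_union disjoint_sdiff, union_sdiff_self_eq_union]

omit [DecidableEq ι] in
theorem wt_lin (v d : ι → ℝ) (t : ℝ) (S : Finset ι) :
    wt (fun i => v i + t * d i) S = wt v S + t * wt d S := by
  unfold wt
  rw [sum_add_distrib, mul_sum]

/-- the image of a set -/
def nb (N : ι → Finset ι) (S : Finset ι) : Finset ι := S.biUnion N

theorem mem_nb {N : ι → Finset ι} {S : Finset ι} {y : ι} : y ∈ nb N S ↔ ∃ x ∈ S, y ∈ N x :=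
  mem_biUnion

theorem nb_mono {N : ι → Finset ι} {S T : Finset ι} (h : S ⊆ T) : nb N S ⊆ nb N T :=
  biUnion_subset_biUnion_of_subset_left N h

/-- the weight of the boundary -/
noncomputable def bd (N : ι → Finset ι) (v : ι → ℝ) (S : Finset ι) : ℝ :=
  wt v (nb N S) - wt v S

theorem bd_union (N : ι → Finset ι) (v : ι → ℝ) {Y T : Finset ι} (h : Disjoint Y T) :
    bd N v (Y ∪ T) = bd N v Y + (wt v (nb N T \ nb N Y) - wt v T) := by
  unfold bd nb
  rw [union_biUnion, wt_union', wt_union h]
  ring

theorem bd_submod {N : ι → Finset ι} {v : ι → ℝ} (hv : ∀ i, 0 ≤ v i) {X Y T : Finset ι}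
    (hXY : X ⊆ Y) (hT : wt v T ≤ wt v (nb N T \ nb N Y)) (h : Disjoint Y T) :
    bd N v X ≤ bd N v (X ∪ T) := by
  rw [bd_union N v (h.mono_left hXY)]
  have h1 : wt v (nb N T \ nb N Y) ≤ wt v (nb N T \ nb N X) :=
    wt_mono hv (sdiff_subset_sdiff le_rfl (nb_mono hXY))
  linarith

end basic

variable {α β : Type*} [Fintype α] [DecidableEq α] [Fintype β] [DecidableEq β]

/-- erosion in the first coordinate -/
def er (M : α → Finset α) (Z : α → Finset β) (z' : α) : Finset β :=
  univ.filter fun x => ∀ z, z' ∈ M z → x ∈ Z z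

theorem mem_er {M : α → Finset α} {Z : α → Finset β} {z' : α} {x : β} :
    x ∈ er M Z z' ↔ ∀ z, z' ∈ M z → x ∈ Z z := by simp [er]

theorem er_subset {M : α → Finset α} {Z : α → Finset β} {z z' : α} (h : z' ∈ M z) :
    er M Z z' ⊆ Z z := fun _ hx => mem_er.1 hx z h

/-- the columns -/
def colm (Z : α → Finset β) (x : β) : Finset α := univ.filter fun z => x ∈ Z z

omit [DecidableEq α] [Fintype β] in
theorem mem_colm {Z : α → Finset β} {x : β} {z : α} : z ∈ colm Z x ↔ x ∈ Z z := by simp [colm]

/-- total boundary of the rows -/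
noncomputable def row (N : β → Finset β) (w : α → ℝ) (v : β → ℝ) (Z : α → Finset β) : ℝ :=
  ∑ z, w z * bd N v (Z z)

/-- the functional of the theorem -/
noncomputable def Om (M : α → Finset α) (N : β → Finset β) (w : α → ℝ) (v : β → ℝ)
    (Z : α → Finset β) : ℝ := row N w v (er M Z) - row N w v Z

/-- optimality of the rows -/
def RP (N : β → Finset β) (v : β → ℝ) (B U : α → Finset β) : Prop :=
  ∀ z, ∀ T ⊆ U z \ B z, wt v T ≤ wt v (nb N T \ nb N (B z))

/-- optimality of the columns -/
def CP (M : α → Finset α) (w : α → ℝ) (B U : α → Finset β) : Prop :=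
  ∀ x, ∀ S ⊆ colm U x \ colm B x, wt w S ≤ wt w (nb M S \ nb M (colm U x)ᶜ)

/-! ### The column inequality -/

variable {M : α → Finset α} {N : β → Finset β} {w : α → ℝ} {v : β → ℝ} {B U : α → Finset β}

theorem col_step (hw : ∀ z, 0 ≤ w z) (hC : CP M w B U) (x : β) (F0 F : Finset β)
    (hF : ∀ y ∈ F, x ∈ N y) :
    wt w (univ.filter fun z => x ∉ nb N (B z) ∧ ∃ y ∈ F0 ∪ F, y ∈ U z) +
      wt w (univ.filter fun z => x ∉ nb N (er M B z) ∧ ∃ y ∈ F0, y ∈ er M U z) ≤
    wt w (univ.filter fun z => x ∉ nb N (er M B z) ∧ ∃ y ∈ F0 ∪ F, y ∈ er M U z) +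
      wt w (univ.filter fun z => x ∉ nb N (B z) ∧ ∃ y ∈ F0, y ∈ U z) := by
  induction F using Finset.induction_on with
  | empty =>
    rw [union_empty]
    exact le_of_eq (add_comm _ _)
  | insert y F hy ih =>
    have ih' := ih fun a ha => hF a (mem_insert_of_mem ha)
    have hxy := hF y (mem_insert_self y F)
    set K : Finset α := univ.filter fun z => x ∉ nb N (B z) ∧ ∃ y ∈ F0 ∪ F, y ∈ U z with hK
    set K1 : Finset α := univ.filter fun z => x ∉ nb N (B z) ∧ ∃ a ∈ F0 ∪ insert y F, a ∈ U z
      with hK1
    set L : Finset α := univ.filter fun z => x ∉ nb N (er M B z) ∧ ∃ y ∈ F0 ∪ F, y ∈ er M U z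
      with hL
    set L1 : Finset α := univ.filter fun z => x ∉ nb N (er M B z) ∧
      ∃ a ∈ F0 ∪ insert y F, a ∈ er M U z with hL1
    set S : Finset α := K1 \ K with hS
    set Q : Finset α := nb M S \ nb M (colm U y)ᶜ with hQ
    have hmS : ∀ z, z ∈ S ↔ x ∉ nb N (B z) ∧ y ∈ U z ∧ ∀ a ∈ F0 ∪ F, a ∉ U z := by
      intro z
      rw [hS, mem_sdiff, hK1, hK, mem_filter, mem_filter]
      constructor
      · rintro ⟨⟨-, h1, a, ha, haU⟩, h2⟩
        have h3 : ∀ a ∈ F0 ∪ F, a ∉ U z := fun b hb hbU => h2 ⟨mem_univ _, h1, b, hb, hbU⟩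
        refine ⟨h1, ?_, h3⟩
        rw [mem_union, mem_insert] at ha
        rcases ha with ha | rfl | ha
        · exact absurd haU (h3 a (mem_union_left _ ha))
        · exact haU
        · exact absurd haU (h3 a (mem_union_right _ ha))
      · rintro ⟨h1, h2, h3⟩
        refine ⟨⟨mem_univ _, h1, y, mem_union_right _ (mem_insert_self y F), h2⟩, ?_⟩
        rintro ⟨-, -, b, hb, hbU⟩
        exact h3 b hb hbU
    have hS1 : S ⊆ colm U y \ colm B y := by
      intro z hz
      obtain ⟨h1, h2, -⟩ := (hmS z).1 hz
      rw [mem_sdiff, mem_colm, mem_colm]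
      exact ⟨h2, fun h3 => h1 (mem_nb.2 ⟨y, h3, hxy⟩)⟩
    have h1 : wt w S ≤ wt w Q := hC y S hS1
    have hKK : K ⊆ K1 := by
      intro z hz
      rw [hK, mem_filter] at hz
      rw [hK1, mem_filter]
      obtain ⟨-, h2, a, ha, haU⟩ := hz
      refine ⟨mem_univ _, h2, a, ?_, haU⟩
      rw [mem_union] at ha ⊢
      exact ha.imp_right (mem_insert_of_mem)
    have h2 : wt w K1 = wt w K + wt w S := by
      rw [← wt_union disjoint_sdiff, union_sdiff_of_subset hKK]
    have hQL : L ∪ Q ⊆ L1 := by
      intro z' hz
      rcases mem_union.1 hz with hz | hz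
      · rw [hL, mem_filter] at hz
        rw [hL1, mem_filter]
        obtain ⟨-, h2, a, ha, haU⟩ := hz
        refine ⟨mem_univ _, h2, a, ?_, haU⟩
        rw [mem_union] at ha ⊢
        exact ha.imp_right (mem_insert_of_mem)
      · rw [hQ, mem_sdiff] at hz
        obtain ⟨h3, h4⟩ := hz
        obtain ⟨z, hzS, hzz⟩ := mem_nb.1 h3
        obtain ⟨h5, -, -⟩ := (hmS z).1 hzS
        rw [hL1, mem_filter]
        refine ⟨mem_univ _, fun h6 => h5 (nb_mono (er_subset hzz) h6), y,
          mem_union_right _ (mem_insert_self y F), mem_er.2 fun a ha => ?_⟩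
        by_contra hcon
        exact h4 (mem_nb.2 ⟨a, mem_compl.2 fun h7 => hcon (mem_colm.1 h7), ha⟩)
    have hdis : Disjoint L Q := by
      rw [disjoint_left]
      intro z' hzL hzQ
      rw [hL, mem_filter] at hzL
      rw [hQ, mem_sdiff] at hzQ
      obtain ⟨-, -, a, ha, haU⟩ := hzL
      obtain ⟨z, hzS, hzz⟩ := mem_nb.1 hzQ.1
      obtain ⟨-, -, h5⟩ := (hmS z).1 hzS
      exact h5 a ha (er_subset hzz haU)
    have h3 : wt w L + wt w Q ≤ wt w L1 := by
      rw [← wt_union hdis]
      exact wt_mono hw hQL
    linarith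

/-- a single column of weight -/
theorem om_single (hw : ∀ z, 0 ≤ w z) (hN : ∀ x, x ∈ N x) (hB : ∀ z, B z ⊆ U z)
    (hR : RP N v B U) (hC : CP M w B U) {x : β} (hv : 0 ≤ v x) (h0 : ∀ y, y ≠ x → v y = 0) :
    Om M N w v B ≤ Om M N w v U := by
  rcases eq_or_lt_of_le hv with hx0 | hx0
  · have hv0 : ∀ S, wt v S = 0 := by
      intro S
      refine sum_eq_zero fun y _ => ?_
      by_cases hy : y = x
      · rw [hy, ← hx0]
      · exact h0 y hy
    have : ∀ Z : α → Finset β, Om M N w v Z = 0 := by
      intro Z
      simp [Om, row, bd, hv0]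
    rw [this, this]
  have hwt : ∀ S : Finset β, wt v S = if x ∈ S then v x else 0 := by
    intro S
    unfold wt
    rw [← sum_ite_eq' S x v]
    refine sum_congr rfl fun y _ => ?_
    by_cases hy : y = x
    · rw [if_pos hy]
    · rw [if_neg hy, h0 y hy]
  have hstar : ∀ z, x ∈ U z → x ∉ B z → x ∉ nb N (B z) := by
    intro z h1 h2 h3
    have h4 := hR z {x} (by
      rw [singleton_subset_iff, mem_sdiff]
      exact ⟨h1, h2⟩)
    rw [hwt, hwt, if_pos (mem_singleton_self x), if_neg (fun h5 => (mem_sdiff.1 h5).2 h3)] at h4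
    linarith
  have hcolm : ∀ Z : α → Finset β, row N w v Z =
      v x * (wt w (univ.filter fun z => x ∈ nb N (Z z)) - wt w (univ.filter fun z => x ∈ Z z)) := by
    intro Z
    unfold row bd
    have e : ∀ z, w z * (wt v (nb N (Z z)) - wt v (Z z)) =
        v x * ((if x ∈ nb N (Z z) then w z else 0) - (if x ∈ Z z then w z else 0)) := by
      intro z
      rw [hwt, hwt]
      split_ifs <;> ring
    rw [sum_congr rfl fun z _ => e z, ← mul_sum, sum_sub_distrib, ← sum_filter, ← sum_filter]
    rfl
  have hsub : ∀ {Z Z' : α → Finset β}, (∀ z, Z z ⊆ Z' z) →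
      wt w (univ.filter fun z => x ∈ Z' z) =
        wt w (univ.filter fun z => x ∈ Z z) + wt w (univ.filter fun z => x ∈ Z' z ∧ x ∉ Z z) := by
    intro Z Z' h
    rw [← wt_union]
    · congr 1
      ext z
      simp only [mem_union, mem_filter, mem_univ, true_and]
      constructor
      · intro h1
        by_cases h2 : x ∈ Z z
        · exact Or.inl h2
        · exact Or.inr ⟨h1, h2⟩
      · rintro (h1 | h1)
        · exact h z h1
        · exact h1.1
    · rw [disjoint_left]
      intro z h1 h2
      rw [mem_filter] at h1 h2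
      exact h2.2.2 h1.2
  have herBU : ∀ z, er M B z ⊆ er M U z := fun z y hy =>
    mem_er.2 fun a ha => hB a (mem_er.1 hy a ha)
  have e1 := hsub (Z := fun z => nb N (B z)) (Z' := fun z => nb N (U z)) fun z => nb_mono (hB z)
  have e2 := hsub (Z := B) (Z' := U) hB
  have e3 := hsub (Z := fun z => nb N (er M B z)) (Z' := fun z => nb N (er M U z))
    fun z => nb_mono (herBU z)
  have e4 := hsub (Z := er M B) (Z' := er M U) herBU
  have key := col_step (N := N) hw hC x {x} (univ.filter fun y => x ∈ N y)
    (fun y hy => (mem_filter.1 hy).2)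
  have f1 : (univ.filter fun z => x ∉ nb N (B z) ∧
      ∃ y ∈ {x} ∪ (univ.filter fun y => x ∈ N y), y ∈ U z) =
      univ.filter fun z => x ∈ nb N (U z) ∧ x ∉ nb N (B z) := by
    ext z
    simp only [mem_filter, mem_univ, true_and, mem_union, mem_singleton, mem_nb]
    constructor
    · rintro ⟨h1, y, h2, h3⟩
      refine ⟨⟨y, h3, ?_⟩, h1⟩
      rcases h2 with rfl | h2
      · exact hN _
      · exact h2
    · rintro ⟨⟨y, h3, h2⟩, h1⟩
      exact ⟨h1, y, Or.inr h2, h3⟩
  have f2 : (univ.filter fun z => x ∉ nb N (er M B z) ∧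
      ∃ y ∈ {x} ∪ (univ.filter fun y => x ∈ N y), y ∈ er M U z) =
      univ.filter fun z => x ∈ nb N (er M U z) ∧ x ∉ nb N (er M B z) := by
    ext z
    simp only [mem_filter, mem_univ, true_and, mem_union, mem_singleton, mem_nb]
    constructor
    · rintro ⟨h1, y, h2, h3⟩
      refine ⟨⟨y, h3, ?_⟩, h1⟩
      rcases h2 with rfl | h2
      · exact hN _
      · exact h2
    · rintro ⟨⟨y, h3, h2⟩, h1⟩
      exact ⟨h1, y, Or.inr h2, h3⟩
  have f3 : (univ.filter fun z => x ∉ nb N (B z) ∧ ∃ y ∈ ({x} : Finset β), y ∈ U z) =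
      univ.filter fun z => x ∈ U z ∧ x ∉ B z := by
    ext z
    simp only [mem_filter, mem_univ, true_and, mem_singleton, exists_eq_left]
    constructor
    · rintro ⟨h1, h2⟩
      exact ⟨h2, fun h3 => h1 (mem_nb.2 ⟨x, h3, hN x⟩)⟩
    · rintro ⟨h1, h2⟩
      exact ⟨hstar z h1 h2, h1⟩
  have f4 : (univ.filter fun z => x ∉ nb N (er M B z) ∧ ∃ y ∈ ({x} : Finset β), y ∈ er M U z) =
      univ.filter fun z => x ∈ er M U z ∧ x ∉ er M B z := by
    ext z
    simp only [mem_filter, mem_univ, true_and, mem_singleton, exists_eq_left]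
    constructor
    · rintro ⟨h1, h2⟩
      exact ⟨h2, fun h3 => h1 (mem_nb.2 ⟨x, h3, hN x⟩)⟩
    · rintro ⟨h1, h2⟩
      refine ⟨fun h3 => ?_, h1⟩
      rw [mem_er] at h2
      push Not at h2
      obtain ⟨a, ha, hax⟩ := h2
      exact hstar a (mem_er.1 h1 a ha) hax (nb_mono (er_subset ha) h3)
  rw [f1, f2, f3, f4] at key
  unfold Om
  rw [hcolm, hcolm, hcolm, hcolm]
  have hfin : v x * (wt w (univ.filter fun z => x ∈ nb N (er M B z)) -
      wt w (univ.filter fun z => x ∈ er M B z) - (wt w (univ.filter fun z => x ∈ nb N (B z)) -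
      wt w (univ.filter fun z => x ∈ B z))) ≤ v x * (wt w (univ.filter fun z => x ∈ nb N (er M U z)) -
      wt w (univ.filter fun z => x ∈ er M U z) - (wt w (univ.filter fun z => x ∈ nb N (U z)) -
      wt w (univ.filter fun z => x ∈ U z))) := by
    refine mul_le_mul_of_nonneg_left ?_ hx0.le
    linarith
  linarith

/-! ### A tight row -/

theorem om_tight (hw : ∀ z, 0 ≤ w z) (hv : ∀ x, 0 ≤ v x) (hR : RP N v B U)
    {z0 : α} {T : Finset β} (hT : T ⊆ U z0 \ B z0)
    (ht : wt v (nb N T \ nb N (B z0)) ≤ wt v T) :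
    Om M N w v B ≤ Om M N w v (Function.update B z0 (B z0 ∪ T)) := by
  set B1 : α → Finset β := Function.update B z0 (B z0 ∪ T) with hB1
  have hd : Disjoint (B z0) T :=
    disjoint_of_subset_right hT (disjoint_sdiff)
  have h1 : row N w v B1 ≤ row N w v B := by
    refine sum_le_sum fun z _ => mul_le_mul_of_nonneg_left ?_ (hw z)
    by_cases hz : z = z0
    · subst hz
      rw [hB1, Function.update_self, bd_union N v hd]
      linarith
    · rw [hB1, Function.update_of_ne hz]
  have h2 : row N w v (er M B) ≤ row N w v (er M B1) := by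
    refine sum_le_sum fun z' _ => mul_le_mul_of_nonneg_left ?_ (hw z')
    by_cases hz : z' ∈ M z0
    · have e : er M B1 z' = er M B z' ∪ (er M B1 z' ∩ T) := by
        ext x
        rw [mem_union, mem_inter, mem_er, mem_er]
        constructor
        · intro h
          by_cases hx : x ∈ T
          · exact Or.inr ⟨h, hx⟩
          · left
            intro z hz'
            have h3 := h z hz'
            by_cases hz0 : z = z0
            · subst hz0
              rw [hB1, Function.update_self, mem_union] at h3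
              exact h3.resolve_right hx
            · rwa [hB1, Function.update_of_ne hz0] at h3
        · rintro (h | h)
          · intro z hz'
            by_cases hz0 : z = z0
            · subst hz0
              rw [hB1, Function.update_self]
              exact mem_union_left _ (h _ hz')
            · rw [hB1, Function.update_of_ne hz0]
              exact h z hz'
          · exact h.1
      rw [e]
      exact bd_submod hv (er_subset hz) (hR z0 _ (inter_subset_right.trans hT))
        (hd.mono_right inter_subset_right)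
    · have e : er M B1 z' = er M B z' := by
        ext x
        rw [mem_er, mem_er]
        refine forall_congr' fun z => forall_congr' fun hz' => ?_
        have hz0 : z ≠ z0 := by
          rintro rfl
          exact hz hz'
        rw [hB1, Function.update_of_ne hz0]
      rw [e]
  unfold Om
  linarith

/-! ### The theorem -/

/-- the size of the gap -/
def gp (B U : α → Finset β) : ℕ := ∑ z, (U z \ B z).card

theorem om_lin (v d : β → ℝ) (t : ℝ) (Z : α → Finset β) :
    Om M N w (fun i => v i + t * d i) Z = Om M N w v Z + t * Om M N w d Z := by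
  have h : ∀ Z : α → Finset β, row N w (fun i => v i + t * d i) Z =
      row N w v Z + t * row N w d Z := by
    intro Z
    unfold row bd
    rw [mul_sum, ← sum_add_distrib]
    refine sum_congr rfl fun z _ => ?_
    rw [wt_lin, wt_lin]
    ring
  unfold Om
  rw [h, h]
  ring

theorem om_cont (Z : α → Finset β) : Continuous fun v : β → ℝ => Om M N w v Z := by
  unfold Om row bd wt
  fun_prop

omit [Fintype β] [DecidableEq β] in
theorem wt_cont (S : Finset β) : Continuous fun v : β → ℝ => wt v S := by
  unfold wt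
  fun_prop

theorem star_aux (hw : ∀ z, 0 ≤ w z) (hN : ∀ x, x ∈ N x) (k : ℕ) :
    ∀ (B U : α → Finset β) (v : β → ℝ), gp B U ≤ k → (∀ z, B z ⊆ U z) → (∀ x, 0 ≤ v x) →
      RP N v B U → CP M w B U → Om M N w v B ≤ Om M N w v U := by
  induction k with
  | zero =>
    intro B U v hk hB _ _ _
    have h : B = U := by
      funext z
      refine Subset.antisymm (hB z) ?_
      have h1 : (U z \ B z).card ≤ gp B U :=
        single_le_sum (f := fun z => (U z \ B z).card) (fun _ _ => Nat.zero_le _) (mem_univ z)
      have h2 : (U z \ B z).card = 0 := by omega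
      rw [card_eq_zero, sdiff_eq_empty_iff_subset] at h2
      exact h2
    rw [h]
  | succ k ih =>
    intro B U v0 hk hB hv0 hR0 hC
    -- the case of a tight row
    have htight : ∀ v : β → ℝ, (∀ x, 0 ≤ v x) → RP N v B U →
        (∃ z T, T ⊆ U z \ B z ∧ T.Nonempty ∧ wt v (nb N T \ nb N (B z)) ≤ wt v T) →
        Om M N w v B ≤ Om M N w v U := by
      rintro v hv hR ⟨z0, T, hT, hTn, ht⟩
      refine (om_tight hw hv hR hT ht).trans ?_
      have hd : Disjoint (B z0) T := disjoint_of_subset_right hT disjoint_sdiff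
      have hsub : ∀ z, B z ⊆ Function.update B z0 (B z0 ∪ T) z := by
        intro z
        by_cases hz : z = z0
        · subst hz
          rw [Function.update_self]
          exact subset_union_left
        · rw [Function.update_of_ne hz]
      have hlt : gp (Function.update B z0 (B z0 ∪ T)) U < gp B U := by
        refine sum_lt_sum (fun z _ => card_le_card (sdiff_subset_sdiff le_rfl (hsub z)))
          ⟨z0, mem_univ _, ?_⟩
        refine card_lt_card ?_
        rw [Function.update_self, ssubset_iff_of_subset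
          (sdiff_subset_sdiff le_rfl subset_union_left)]
        obtain ⟨t, htT⟩ := hTn
        exact ⟨t, hT htT, fun h => (mem_sdiff.1 h).2 (mem_union_right _ htT)⟩
      refine ih _ U v (by omega) ?_ hv ?_ ?_
      · intro z
        by_cases hz : z = z0
        · subst hz
          rw [Function.update_self]
          exact union_subset (hB z) (hT.trans sdiff_subset)
        · rw [Function.update_of_ne hz]
          exact hB z
      · intro z S hS
        by_cases hz : z = z0
        · subst hz
          rw [Function.update_self] at hS ⊢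
          have h1 : T ∪ S ⊆ U z \ B z := by
            refine union_subset hT (hS.trans (sdiff_subset_sdiff le_rfl subset_union_left))
          have h2 := hR z _ h1
          have h3 : Disjoint T S := by
            rw [disjoint_left]
            intro a ha haS
            exact (mem_sdiff.1 (hS haS)).2 (mem_union_right _ ha)
          rw [wt_union h3] at h2
          have h4 : wt v (nb N (T ∪ S) \ nb N (B z)) =
              wt v (nb N T \ nb N (B z)) + wt v (nb N S \ nb N (B z ∪ T)) := by
            have e : nb N (T ∪ S) \ nb N (B z) =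
                (nb N T \ nb N (B z)) ∪ (nb N S \ nb N (B z ∪ T)) := by
              unfold nb
              rw [union_biUnion, union_biUnion]
              ext a
              simp only [mem_sdiff, mem_union]
              tauto
            rw [e, wt_union]
            rw [disjoint_left]
            intro a ha hb
            unfold nb at ha hb
            rw [union_biUnion] at hb
            simp only [mem_sdiff, mem_union] at ha hb
            tauto
          linarith
        · rw [Function.update_of_ne hz] at hS ⊢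
          exact hR z S hS
      · intro x S hS
        refine hC x S (hS.trans ?_)
        refine sdiff_subset_sdiff le_rfl fun z hz => ?_
        rw [mem_colm] at hz ⊢
        exact hsub z hz
    -- extreme rays
    by_contra hcon
    push Not at hcon
    set F : (β → ℝ) → ℝ := fun v => Om M N w v U - Om M N w v B with hF
    have hFc : Continuous F := (om_cont U).sub (om_cont B)
    have hFl : ∀ v d t, F (fun i => v i + t * d i) = F v + t * F d := by
      intro v d t
      simp only [hF]
      rw [om_lin, om_lin]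
      ring
    set P : Set (β → ℝ) := {v | (∀ x, 0 ≤ v x) ∧ ∑ x, v x = 1 ∧ RP N v B U} with hP
    have hPc : IsCompact P := by
      have h1 : IsCompact (stdSimplex ℝ β) := isCompact_stdSimplex ℝ β
      have h2 : P = stdSimplex ℝ β ∩ {v | RP N v B U} := by
        ext v
        simp only [hP, stdSimplex, Set.mem_inter_iff, Set.mem_ofPred_eq]
        tauto
      rw [h2]
      refine h1.inter_right ?_
      unfold RP
      simp only [Set.ofPred_forall]
      exact isClosed_iInter fun z => isClosed_iInter fun T => isClosed_iInter fun _ =>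
        isClosed_le (wt_cont _) (wt_cont _)
    -- normalisation
    have hs : 0 < ∑ x, v0 x := by
      rcases eq_or_lt_of_le (sum_nonneg fun x (_ : x ∈ univ) => hv0 x) with h | h
      · exfalso
        have h1 : ∀ x, v0 x = 0 := fun x =>
          (sum_eq_zero_iff_of_nonneg fun x _ => hv0 x).1 h.symm x (mem_univ x)
        have h2 : v0 = fun _ => 0 := funext h1
        have h3 : ∀ Z : α → Finset β, Om M N w v0 Z = 0 := by
          intro Z
          rw [h2]
          simp [Om, row, bd, wt]
        rw [h3, h3] at hcon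
        exact lt_irrefl _ hcon
      · exact h
    have hsc : ∀ (c : ℝ) (v : β → ℝ) (S : Finset β), wt (fun i => c * v i) S = c * wt v S := by
      intro c v S
      unfold wt
      rw [mul_sum]
    have hne : (fun i => (∑ x, v0 x)⁻¹ * v0 i) ∈ P := by
      refine ⟨fun x => mul_nonneg (inv_nonneg.2 hs.le) (hv0 x), ?_, ?_⟩
      · rw [← mul_sum, inv_mul_cancel₀ hs.ne']
      · intro z T hT
        rw [hsc, hsc]
        exact mul_le_mul_of_nonneg_left (hR0 z T hT) (inv_nonneg.2 hs.le)
    have hneg : F (fun i => (∑ x, v0 x)⁻¹ * v0 i) < 0 := by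
      have h1 := hFl (fun _ => 0) v0 (∑ x, v0 x)⁻¹
      have h2 : F (fun _ => 0) = 0 := by
        simp [hF, Om, row, bd, wt]
      simp only [zero_add] at h1
      rw [h1, h2, zero_add]
      refine mul_neg_of_pos_of_neg (inv_pos.2 hs) ?_
      simp only [hF]
      linarith
    obtain ⟨v1, hv1, hmin⟩ := hPc.exists_isMinOn ⟨_, hne⟩ hFc.continuousOn
    have hm : F v1 < 0 := lt_of_le_of_lt (hmin hne) hneg
    set S1 : Set (β → ℝ) := P ∩ {v | F v = F v1} with hS1
    have hS1c : IsCompact S1 := hPc.inter_right (isClosed_eq hFc continuous_const)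
    have hqc : Continuous fun v : β → ℝ => ∑ x, v x ^ 2 := by fun_prop
    obtain ⟨v2, hv2, hmax⟩ := hS1c.exists_isMaxOn ⟨v1, hv1, rfl⟩ hqc.continuousOn
    obtain ⟨⟨hn2, hs2, hR2⟩, hF2⟩ := hv2
    have hF2' : F v2 = F v1 := hF2
    have hnt : ¬ ∃ z T, T ⊆ U z \ B z ∧ T.Nonempty ∧
        wt v2 (nb N T \ nb N (B z)) ≤ wt v2 T := by
      intro h
      have h1 := htight v2 hn2 hR2 h
      have h2 : 0 ≤ F v2 := by
        simp only [hF]
        linarith
      linarith
    push Not at hnt
    by_cases hxy : ∃ x y, x ≠ y ∧ 0 < v2 x ∧ 0 < v2 y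
    · obtain ⟨x, y, hne', hx, hy⟩ := hxy
      set d : β → ℝ := fun i => (if i = x then 1 else 0) - (if i = y then 1 else 0) with hd
      have hdc : ∀ i, Continuous fun t : ℝ => v2 i + t * d i := fun i => by fun_prop
      have hev1 : ∀ᶠ t in nhds (0 : ℝ), ∀ z : α, ∀ T : Finset β, T ⊆ U z \ B z → T.Nonempty →
          wt (fun i => v2 i + t * d i) T <
            wt (fun i => v2 i + t * d i) (nb N T \ nb N (B z)) := by
        rw [Filter.eventually_all]
        intro z
        rw [Filter.eventually_all]
        intro T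
        by_cases h1 : T ⊆ U z \ B z ∧ T.Nonempty
        · have h2 := hnt z T h1.1 h1.2
          have h3 : Continuous fun t : ℝ => wt (fun i => v2 i + t * d i) T := by
            simp only [wt_lin]
            fun_prop
          have h4 : Continuous fun t : ℝ => wt (fun i => v2 i + t * d i)
              (nb N T \ nb N (B z)) := by
            simp only [wt_lin]
            fun_prop
          have h5 := (h3.tendsto 0).eventually_lt (h4.tendsto 0) (by simpa using h2)
          exact h5.mono fun t ht _ _ => ht
        · exact Filter.Eventually.of_forall fun t h2 h3 => absurd ⟨h2, h3⟩ h1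
      have hev2 : ∀ᶠ t in nhds (0 : ℝ), 0 < v2 x + t * d x :=
        ((hdc x).tendsto 0).eventually (lt_mem_nhds (by simpa using hx))
      have hev3 : ∀ᶠ t in nhds (0 : ℝ), 0 < v2 y + t * d y :=
        ((hdc y).tendsto 0).eventually (lt_mem_nhds (by simpa using hy))
      obtain ⟨δ, hδ, hall⟩ := Metric.eventually_nhds_iff.1 (hev1.and (hev2.and hev3))
      have hmem : ∀ t : ℝ, dist t 0 < δ → (fun i => v2 i + t * d i) ∈ P := by
        intro t ht
        obtain ⟨h1, h2, h3⟩ := hall ht
        refine ⟨fun i => ?_, ?_, ?_⟩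
        · show 0 ≤ v2 i + t * d i
          by_cases hix : i = x
          · rw [hix]; exact h2.le
          · by_cases hiy : i = y
            · rw [hiy]; exact h3.le
            · have : d i = 0 := by simp [hd, hix, hiy]
              rw [this, mul_zero, add_zero]
              exact hn2 i
        · have : ∑ i, d i = 0 := by
            simp [hd, sum_sub_distrib]
          rw [sum_add_distrib, ← mul_sum, this, hs2]
          ring
        · intro z T hT
          rcases T.eq_empty_or_nonempty with rfl | hTn
          · simp [wt, nb]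
          · exact (h1 z T hT hTn).le
      have hdp : dist (δ / 2) 0 < δ := by
        rw [Real.dist_eq, sub_zero, abs_of_pos (by linarith)]
        linarith
      have hdm : dist (-(δ / 2)) 0 < δ := by
        rw [Real.dist_eq, sub_zero, abs_neg, abs_of_pos (by linarith)]
        linarith
      have hp := hmem _ hdp
      have hq := hmem _ hdm
      have hp1 : F v1 ≤ F (fun i => v2 i + δ / 2 * d i) := hmin hp
      have hq1 : F v1 ≤ F (fun i => v2 i + -(δ / 2) * d i) := hmin hq
      rw [hFl] at hp1 hq1
      have hFd : δ / 2 * F d = 0 := by linarith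
      have hp2 : (fun i => v2 i + δ / 2 * d i) ∈ S1 := by
        refine ⟨hp, ?_⟩
        show F _ = F v1
        rw [hFl]
        linarith
      have hq2 : (fun i => v2 i + -(δ / 2) * d i) ∈ S1 := by
        refine ⟨hq, ?_⟩
        show F _ = F v1
        rw [hFl]
        linarith
      have hp3 : ∑ i, (v2 i + δ / 2 * d i) ^ 2 ≤ ∑ i, v2 i ^ 2 := hmax hp2
      have hq3 : ∑ i, (v2 i + -(δ / 2) * d i) ^ 2 ≤ ∑ i, v2 i ^ 2 := hmax hq2
      have h5 : ∑ i, (v2 i + δ / 2 * d i) ^ 2 + ∑ i, (v2 i + -(δ / 2) * d i) ^ 2 =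
          2 * ∑ i, v2 i ^ 2 + 2 * (δ / 2) ^ 2 * ∑ i, d i ^ 2 := by
        rw [mul_sum, mul_sum, ← sum_add_distrib, ← sum_add_distrib]
        refine sum_congr rfl fun i _ => ?_
        ring
      have h6 : 0 < ∑ i, d i ^ 2 := by
        refine sum_pos' (fun i _ => sq_nonneg _) ⟨x, mem_univ _, ?_⟩
        have : d x = 1 := by simp [hd, hne']
        rw [this]
        norm_num
      have h7 : 0 < 2 * (δ / 2) ^ 2 * ∑ i, d i ^ 2 := by positivity
      linarith
    · push Not at hxy
      have hex : ∃ x, 0 < v2 x := by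
        by_contra h
        push Not at h
        have : ∑ x, v2 x ≤ 0 := sum_nonpos fun x _ => h x
        linarith
      obtain ⟨x, hx⟩ := hex
      have h1 := om_single hw hN hB hR2 hC (hn2 x) (fun y hy =>
        le_antisymm (hxy x y (Ne.symm hy) hx) (hn2 y))
      have h2 : 0 ≤ F v2 := by
        simp only [hF]
        linarith
      linarith

/-- **The local exchange inequality.** -/
theorem star (hw : ∀ z, 0 ≤ w z) (hv : ∀ x, 0 ≤ v x) (hN : ∀ x, x ∈ N x) (hB : ∀ z, B z ⊆ U z)
    (hR : RP N v B U) (hC : CP M w B U) :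
    row N w v U + row N w v (er M B) ≤ row N w v (er M U) + row N w v B := by
  have h := star_aux (M := M) hw hN (gp B U) B U v le_rfl hB hv hR hC
  unfold Om at h
  linarith

end Vale.Agent.P038.H768
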